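import Vale.Agent.P282A71.Sk
import Vale.Agent.P277Z.Oka.Alg
import Vale.Agent.P277Z.Oka.Nug

/-!
P282, analytic double points: a prime ideal of polynomials generates, at the general point of its
zero set, the ideal of all holomorphic functions which vanish on the zero set.
-/

open Filter Topology
open Vale.Agent.P298.H941 Vale.Agent.P277Z.Oka

noncomputable section

namespace Vale.Agent.P282A71

namespace GenH

open Polynomial in
theorem alg' {A : Type} [CommRing A] [Algebra ℂ A] (q : Ideal A[X]) (hq : q.IsPrime) (P : A[X])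
    (hP : P ∈ q) (hb0 : ¬ ∀ i, C (P.coeff i) ∈ q) :
    ∃ g ∈ q, C g.leadingCoeff ∉ q ∧ derivative g ∉ q ∧
      ∀ f ∈ q, ∃ (N : ℕ) (s : A[X]), ∀ i, C ((C g.leadingCoeff ^ N * f - s * g).coeff i) ∈ q := by
  classical
  have hex : ∃ n, ∃ g ∈ q, (¬ ∀ i, C (g.coeff i) ∈ q) ∧ g.natDegree = n := ⟨_, P, hP, hb0, rfl⟩
  obtain ⟨g, hg, hb, hn⟩ := Nat.find_spec hex
  have hmin : ∀ f ∈ q, f.natDegree < g.natDegree → ∀ i, C (f.coeff i) ∈ q := fun f hf hlt => by
    by_contra hc
    exact Nat.find_min hex (hn ▸ hlt) ⟨f, hf, hc, rfl⟩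
  have hlc : C g.leadingCoeff ∉ q := fun hc => hb fun i => by
    have he : g.eraseLead ∈ q := by
      rw [← self_sub_C_mul_X_pow]
      exact q.sub_mem hg (q.mul_mem_right _ hc)
    have hb' : ∀ i, C (g.eraseLead.coeff i) ∈ q := by
      rcases g.eraseLead_natDegree_lt_or_eraseLead_eq_zero with h | h
      · exact hmin _ he h
      · intro i
        rw [h, coeff_zero, C_0]
        exact q.zero_mem
    by_cases hi : i = g.natDegree
    · rw [hi]
      exact hc
    · rw [← eraseLead_coeff_of_ne i hi]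
      exact hb' i
  have hd : 0 < g.natDegree := by
    refine Nat.pos_of_ne_zero fun h => hlc ?_
    rw [leadingCoeff, h, ← eq_C_of_natDegree_eq_zero h]
    exact hg
  refine ⟨g, hg, hlc, fun hc => ?_, fun f hf => ?_⟩
  · have h2 := hmin _ hc (natDegree_derivative_lt hd.ne') (g.natDegree - 1)
    rw [coeff_derivative, Nat.sub_add_cancel hd, C_mul] at h2
    rcases hq.mem_or_mem h2 with h | h
    · exact hlc h
    · have h3 : ((g.natDegree - 1 : ℕ) : ℂ) + 1 ≠ 0 := Nat.cast_add_one_ne_zero _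
      have h4 : IsUnit (((g.natDegree - 1 : ℕ) : A) + 1) := by
        simpa using (IsUnit.mk0 _ h3).map (algebraMap ℂ A)
      exact hq.ne_top (Ideal.eq_top_of_isUnit_mem q h (h4.map C))
  · obtain ⟨N, s, hs⟩ := AlgH.pdiv g hd _ f rfl
    exact ⟨N, s, hmin _ (q.sub_mem (q.mul_mem_left _ hf) (q.mul_mem_left _ hg)) hs⟩

open MvPolynomial

theorem ana_eval {N : ℕ} (p : MvPolynomial (Fin N) ℂ) (x : Fin N → ℂ) :
    AnalyticAt ℂ (fun z : Fin N → ℂ => eval z p) x := by
  induction p using MvPolynomial.induction_on with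
  | C a => simpa only [eval_C] using analyticAt_const
  | add p q hp hq => simpa only [map_add] using hp.fun_add hq
  | mul_X p i hp => simpa only [map_mul, eval_X] using hp.fun_mul (ana_proj i x)

theorem zs_eq {N k : ℕ} (H : Fin k → MvPolynomial (Fin N) ℂ) :
    Zs (fun j (z : Fin N → ℂ) => eval z (H j)) = locus (Ideal.span (Set.range H)) := by
  ext z
  refine ⟨fun hz p hp => ?_, fun hz j => hz _ (Ideal.subset_span ⟨j, rfl⟩)⟩
  obtain ⟨c, rfl⟩ := Ideal.mem_span_range_iff_exists_fun.1 hp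
  rw [map_sum]
  exact Finset.sum_eq_zero fun j _ => by rw [map_mul, show eval z (H j) = 0 from hz j, mul_zero]

theorem in_of_mem {N k : ℕ} (H : Fin k → MvPolynomial (Fin N) ℂ) {p : MvPolynomial (Fin N) ℂ}
    (hp : p ∈ Ideal.span (Set.range H)) (x : Fin N → ℂ) :
    In x (fun j (z : Fin N → ℂ) => eval z (H j)) fun z => eval z p := by
  obtain ⟨c, rfl⟩ := Ideal.mem_span_range_iff_exists_fun.1 hp
  exact ⟨fun j z => eval z (c j), fun j => ana_eval _ _, .of_forall fun z => by simp⟩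

/-- the statement proved by induction on the number of variables -/
def G (N : ℕ) : Prop :=
  ∀ I : Ideal (MvPolynomial (Fin N) ℂ), I.IsPrime → ∃ δ, δ ∉ I ∧ ∀ x ∈ locus I, eval x δ ≠ 0 →
    ∀ (k : ℕ) (H : Fin k → MvPolynomial (Fin N) ℂ), Ideal.span (Set.range H) = I →
      ∀ f, AnalyticAt ℂ f x → Van x (locus I) f → In x (fun j z => eval z (H j)) f

variable {n : ℕ}

/-- polynomials in the variable `i` -/
def e (i : Fin (n + 1)) :
    MvPolynomial (Fin (n + 1)) ℂ ≃ₐ[ℂ] Polynomial (MvPolynomial (Fin n) ℂ) :=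
  (renameEquiv ℂ (Equiv.swap 0 i)).trans (finSuccEquiv ℂ n)

/-- the coordinates with the variable `i` first -/
def Φ (i : Fin (n + 1)) (w : ℂ × (Fin n → ℂ)) : Fin (n + 1) → ℂ :=
  fun j => (Fin.cons w.1 w.2 : Fin (n + 1) → ℂ) (Equiv.swap 0 i j)

/-- the inverse change of coordinates -/
def Ψ (i : Fin (n + 1)) (z : Fin (n + 1) → ℂ) : ℂ × (Fin n → ℂ) :=
  (z (Equiv.swap 0 i 0), fun j => z (Equiv.swap 0 i j.succ))

theorem Φ_Ψ (i : Fin (n + 1)) (z : Fin (n + 1) → ℂ) : Φ i (Ψ i z) = z := by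
  funext j
  have h : (Fin.cons (Ψ i z).1 (Ψ i z).2 : Fin (n + 1) → ℂ) = fun l => z (Equiv.swap 0 i l) := by
    funext l
    refine Fin.cases rfl (fun _ => rfl) l
  rw [Φ, h]
  simp

theorem ana_Φ (i : Fin (n + 1)) (w : ℂ × (Fin n → ℂ)) : AnalyticAt ℂ (Φ i) w := by
  refine analyticAt_pi_iff.2 fun j => ?_
  unfold Φ
  refine Fin.cases ?_ (fun l => ?_) (Equiv.swap 0 i j)
  · exact analyticAt_fst
  · exact (ana_proj l _).comp analyticAt_snd

theorem ana_Ψ (i : Fin (n + 1)) (z : Fin (n + 1) → ℂ) : AnalyticAt ℂ (Ψ i) z :=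
  (ana_proj _ z).prod (analyticAt_pi_iff.2 fun _ => ana_proj _ z)

theorem e_apply (i : Fin (n + 1)) (p : MvPolynomial (Fin (n + 1)) ℂ) :
    e i p = finSuccEquiv ℂ n (rename (Equiv.swap 0 i) p) := rfl

theorem eval_Φ (i : Fin (n + 1)) (w : ℂ × (Fin n → ℂ)) (p : MvPolynomial (Fin (n + 1)) ℂ) :
    eval (Φ i w) p = ((e i p).map (eval w.2)).eval w.1 := by
  rw [e_apply, ← eval_eq_eval_mv_eval', eval_rename]
  rfl

theorem fse_succ (c : MvPolynomial (Fin n) ℂ) :
    finSuccEquiv ℂ n (rename Fin.succ c) = Polynomial.C c := by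
  induction c using MvPolynomial.induction_on with
  | C a => simp [finSuccEquiv_apply]
  | add p q hp hq => rw [map_add, map_add, hp, hq, map_add]
  | mul_X p i hp => rw [map_mul, map_mul, hp, rename_X, finSuccEquiv_X_succ, map_mul]

theorem exists_var (I : Ideal (MvPolynomial (Fin (n + 1)) ℂ)) (h1 : I ≠ ⊤) (h0 : I ≠ ⊥) :
    ∃ i, ∃ p ∈ I, ¬ ∀ j, (e i).symm (Polynomial.C ((e i p).coeff j)) ∈ I := by
  classical
  have hex : ∃ m, ∃ p ∈ I, p ≠ 0 ∧ p.totalDegree = m := by
    obtain ⟨p, hp, hp0⟩ := Submodule.exists_mem_ne_zero_of_ne_bot h0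
    exact ⟨_, p, hp, hp0, rfl⟩
  obtain ⟨p, hp, hp0, hm⟩ := Nat.find_spec hex
  obtain ⟨i, hi⟩ : ∃ i, 0 < degreeOf i p := by
    by_contra! hc
    have h2 : p.totalDegree = 0 := by
      rw [totalDegree_eq_zero_iff]
      exact fun m hm i => Nat.eq_zero_of_le_zero ((monomial_le_degreeOf i hm).trans (hc i))
    rw [totalDegree_eq_zero_iff_eq_C] at h2
    have h3 : p.coeff 0 ≠ 0 := fun h => hp0 (by rw [h2, h, map_zero])
    exact h1 (Ideal.eq_top_of_isUnit_mem I (h2 ▸ hp) ((IsUnit.mk0 _ h3).map C))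
  refine ⟨i, p, hp, fun hc => ?_⟩
  have hd : (e i p).natDegree = degreeOf i p := by
    rw [e_apply, natDegree_finSuccEquiv,
      ← degreeOf_rename_of_injective (p := p) (Equiv.swap 0 i).injective i, Equiv.swap_apply_right]
  have hl : (e i p).coeff (e i p).natDegree ≠ 0 :=
    Polynomial.leadingCoeff_ne_zero.2 fun h => hp0 ((e i).injective (by rw [h, map_zero]))
  have h4 : ((e i p).coeff (e i p).natDegree).totalDegree + (e i p).natDegree ≤
      (rename (Equiv.swap 0 i) p).totalDegree :=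
    totalDegree_coeff_finSuccEquiv_add_le (rename (Equiv.swap 0 i) p) (e i p).natDegree hl
  have h5 := totalDegree_rename_le (Equiv.swap 0 i) p
  have hc' := hc (e i p).natDegree
  generalize (e i p).coeff (e i p).natDegree = c at hl h4 hc'
  have h7 : (Equiv.swap 0 i : Fin (n + 1) → Fin (n + 1)) ∘ Equiv.swap 0 i = id := by
    funext l
    simp
  have h6 : (e i).symm (Polynomial.C c) = rename (Equiv.swap 0 i) (rename Fin.succ c) := by
    rw [AlgEquiv.symm_apply_eq, e_apply, rename_rename _ _ (rename Fin.succ c), h7,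
      rename_id_apply, fse_succ]
  refine Nat.find_min hex (m := ((e i).symm (Polynomial.C c)).totalDegree) ?_
    ⟨_, hc', fun h => hl ?_, rfl⟩
  · rw [← hm, h6]
    have h8 := totalDegree_rename_le (Equiv.swap 0 i) (rename Fin.succ c)
    have h9 := totalDegree_rename_le Fin.succ c
    omega
  · exact Polynomial.C_eq_zero.1 ((e i).symm.injective (by rw [h, map_zero]))

theorem bot {N : ℕ} : ∃ δ, δ ∉ (⊥ : Ideal (MvPolynomial (Fin N) ℂ)) ∧
    ∀ x ∈ locus (⊥ : Ideal (MvPolynomial (Fin N) ℂ)), eval x δ ≠ 0 →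
    ∀ (k : ℕ) (H : Fin k → MvPolynomial (Fin N) ℂ), Ideal.span (Set.range H) = ⊥ →
      ∀ f, AnalyticAt ℂ f x → Van x (locus (⊥ : Ideal (MvPolynomial (Fin N) ℂ))) f →
        In x (fun j z => eval z (H j)) f :=
  ⟨1, by simp, fun x _ _ _ _ _ f _ hv => (In.zero x _).congr (by
    filter_upwards [hv] with y hy
    exact (hy fun p hp => by rw [Ideal.mem_bot.1 hp, map_zero]).symm)⟩

theorem zero : G 0 := fun I hI => by
  have h : I = ⊥ := by
    refine (Submodule.eq_bot_iff _).2 fun p hp => ?_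
    by_contra h0
    obtain ⟨c, rfl⟩ := C_surjective (Fin 0) p
    exact hI.ne_top (Ideal.eq_top_of_isUnit_mem I hp
      ((IsUnit.mk0 c fun h => h0 (by rw [h, map_zero])).map C))
  subst h
  exact bot

theorem step (IH : G n) : G (n + 1) := fun I hI => by
  by_cases h0 : I = ⊥
  · subst h0
    exact bot
  obtain ⟨i, p, hp, hc⟩ := exists_var I hI.ne_top h0
  let q : Ideal (Polynomial (MvPolynomial (Fin n) ℂ)) := I.comap (e i).symm
  have hq : q.IsPrime := Ideal.comap_isPrime _ _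
  have mq : ∀ u ∈ I, e i u ∈ q := fun u hu => by
    change (e i).symm (e i u) ∈ I
    rwa [AlgEquiv.symm_apply_apply]
  obtain ⟨g, hg, hlc, hder, hdiv⟩ := alg' q hq (e i p) (mq p hp) hc
  let I' : Ideal (MvPolynomial (Fin n) ℂ) := q.comap Polynomial.C
  obtain ⟨δ, hδ, H1⟩ := IH I' (Ideal.comap_isPrime _ _)
  obtain ⟨m, H', hH'⟩ := Submodule.fg_iff_exists_fin_generating_family.1
    (IsNoetherian.noetherian I')
  have ev : ∀ (w : ℂ × (Fin n → ℂ)) (u : Polynomial (MvPolynomial (Fin n) ℂ)),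
      eval (Φ i w) ((e i).symm u) = (u.map (eval w.2)).eval w.1 := fun w u => by
    rw [eval_Φ, AlgEquiv.apply_symm_apply]
  refine ⟨(e i).symm (Polynomial.C δ * Polynomial.C g.leadingCoeff * Polynomial.derivative g),
    fun h => ?_, fun x hx hδx k H hH f hf hv => ?_⟩
  · rcases hq.mem_or_mem h with h | h
    · exact (hq.mem_or_mem h).elim hδ hlc
    · exact hder h
  obtain ⟨t, y, hty⟩ : ∃ t y, Ψ i x = (t, y) := ⟨_, _, rfl⟩
  have hx' : Φ i (t, y) = x := by rw [← hty, Φ_Ψ]
  rw [← hx', ev] at hδx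
  simp only [Polynomial.map_mul, Polynomial.map_C, Polynomial.eval_mul, Polynomial.eval_C,
    mul_ne_zero_iff] at hδx
  have hy : y ∈ locus I' := fun u hu => by
    have h := hx _ hu
    rw [← hx', ev] at h
    simpa using h
  have mem : ∀ u ∈ q, In (t, y) (fun j w => eval (Φ i w) (H j))
      fun w => (u.map (eval w.2)).eval w.1 := fun u hu =>
    ((in_of_mem H (p := (e i).symm u) (hH ▸ hu) x).comp (ana_Φ i _) hx').congr
      (.of_forall fun w => ev w u)
  have hZ : Zs (fun j (w : ℂ × (Fin n → ℂ)) => eval (Φ i w) (H j)) = Φ i ⁻¹' locus I := by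
    rw [← hH, ← zs_eq]
    rfl
  have hZ' : Zs (fun j (z : Fin n → ℂ) => eval z (H' j)) = locus I' := by
    rw [zs_eq]
    exact congrArg locus hH'
  have key := Nug.at_root (h := fun j w => eval (Φ i w) (H j))
    (h' := fun j (z : Fin n → ℂ) => eval z (H' j)) (d := g.natDegree)
    (g := fun z => g.map (eval z)) (t := t) (y := y)
    ⟨fun z => Polynomial.natDegree_map_le, fun l => by
      simpa only [Polynomial.coeff_map] using ana_eval _ _⟩
    (by
      have h := hx _ hg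
      rw [← hx', ev] at h
      exact h)
    (by rw [Polynomial.derivative_map]; exact hδx.2)
    (by rw [Polynomial.coeff_map]; exact hδx.1.2)
    (fun r hr hvr => H1 y hy hδx.1.1 m H' hH' r hr (hZ' ▸ hvr))
    (mem g hg)
    (fun j => (mem (Polynomial.C (H' j)) (show H' j ∈ I' from
      hH' ▸ Submodule.subset_span ⟨j, rfl⟩)).congr (.of_forall fun w => by simp))
    (.of_forall fun w h1 h2 h3 j => by
      obtain ⟨N, s, hs⟩ := hdiv _ (mq (H j) (hH ▸ Ideal.subset_span ⟨j, rfl⟩))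
      have h4 : (Polynomial.C g.leadingCoeff ^ N * e i (H j) - s * g).map (eval w.2) = 0 := by
        ext l
        rw [Polynomial.coeff_map, Polynomial.coeff_zero]
        exact (hZ' ▸ h2 : w.2 ∈ locus I') _ (hs l)
      have h5 := congrArg (Polynomial.eval w.1) h4
      have h6 : (g.map (eval w.2)).eval w.1 = 0 := h1
      rw [Polynomial.coeff_map] at h3
      simp only [Polynomial.map_sub, Polynomial.map_mul, Polynomial.map_pow, Polynomial.map_C,
        Polynomial.eval_sub, Polynomial.eval_mul, Polynomial.eval_pow, Polynomial.eval_C, h6,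
        mul_zero, sub_zero, Polynomial.eval_zero] at h5
      change eval (Φ i w) (H j) = 0
      rw [eval_Φ]
      exact (mul_eq_zero.1 h5).resolve_left (pow_ne_zero N h3))
    (f := fun w => f (Φ i w)) (hf.comp_of_eq (ana_Φ i _) hx')
    (hZ ▸ hv.comp (ana_Φ i _).continuousAt hx')
  simpa only [Φ_Ψ] using key.comp (ana_Ψ i x) hty

theorem all (N : ℕ) : G N := by
  induction N with
  | zero => exact zero
  | succ n ih => exact step ih

end GenH

open MvPolynomial

theorem gen (N : ℕ) (I : Ideal (MvPolynomial (Fin N) ℂ)) (hI : I.IsPrime) :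
    ∃ δ, δ ∉ I ∧ ∀ x ∈ locus I, eval x δ ≠ 0 → ∀ f, AnalyticAt ℂ f x → Van x (locus I) f →
      gm x f ∈ Ideal.span {a | ∃ p ∈ I, a = gm x fun z => eval z p} := by
  obtain ⟨δ, hδ, H1⟩ := GenH.all N I hI
  obtain ⟨m, H, hH⟩ := Submodule.fg_iff_exists_fin_generating_family.1
    (IsNoetherian.noetherian I)
  refine ⟨δ, hδ, fun x hx h0 f hf hv => ?_⟩
  have h := (in_iff (fun j => GenH.ana_eval (H j) x) hf).1 (H1 x hx h0 m H hH f hf hv)
  refine Ideal.span_mono ?_ h
  rintro _ ⟨j, rfl⟩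
  exact ⟨H j, hH ▸ Submodule.subset_span ⟨j, rfl⟩, rfl⟩

end Vale.Agent.P282A71
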