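import Vale.Agent.P282A21.Gen
import Vale.Agent.P282A74.Reg
import Vale.Agent.P277Z.Oka.All

/-!
P282, analytic double points: the row RAD.
-/

open Filter Topology MvPolynomial
open Vale.Agent.P298.H941 Vale.Agent.P277Z.Oka

noncomputable section

namespace Vale.Agent.P282A71

theorem pl_eq_gm {N : ℕ} (p : MvPolynomial (Fin N) ℂ) :
    pl N p = gm 0 fun z : Fin N → ℂ => eval z p := by
  induction p using MvPolynomial.induction_on with
  | C a =>
    simp only [eval_C]
    rw [gm_const, pl, aeval_C]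
  | add p q hp hq =>
    simp only [map_add]
    rw [hp, hq, gm_add (GenH.ana_eval p 0) (GenH.ana_eval q 0)]
  | mul_X p i hp =>
    simp only [map_mul, eval_X]
    rw [hp, gm_mul (GenH.ana_eval p 0) (ana_proj i 0), gm_zero_eq (ana_proj i 0), pl, aeval_X]
    rfl

theorem rad (hJ : JET) : RAD := fun N I hI _ f hf hv => by
  obtain ⟨δ, hδ, H1⟩ := GenH.all N I hI
  obtain ⟨m, H, hH⟩ := Submodule.fg_iff_exists_fin_generating_family.1
    (IsNoetherian.noetherian I)
  have hH' : Ideal.span (Set.range H) = I := hH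
  have ha : ∀ j x, AnalyticAt ℂ (fun z : Fin N → ℂ => eval z (H j)) x :=
    fun j x => GenH.ana_eval _ x
  have hv' : Van 0 (locus I) f := eventually_nhdsWithin_iff.1 hv
  obtain ⟨k, r, hr, hrf, hcol⟩ := col_all (Fin N → ℂ) (Fin m) 0
    (fun j z => eval z (H j)) f (fun j => ha j 0) hf
  have hz : Van 0 (Zs r) fun z => eval z δ := by
    filter_upwards [hcol, hf.eventually_analyticAt, hv'.eventually] with x h1 h2 h3 hx
    by_contra h0
    have h4 : In x (fun j z => eval z (H j)) f := by
      by_cases hl : x ∈ locus I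
      · exact H1 x hl h0 m H hH' f h2 h3
      · rw [← hH', ← GenH.zs_eq] at hl
        obtain ⟨j, hj⟩ := not_forall.1 hl
        exact In.of_unit (((In.self x (fun j z => eval z (H j)) j).mul h2).congr
          (.of_forall fun y => mul_comm _ _)) (ha j x) hj
    have h5 := (h1 (fun _ => 1) analyticAt_const
      (h4.congr (.of_forall fun y => (one_mul _).symm))).van.self_of_nhds hx
    exact one_ne_zero h5
  obtain ⟨n, c, hc, hn⟩ := nul_all (Fin N → ℂ) (Fin k) 0 r hr _ (GenH.ana_eval δ 0) hz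
  have h6 : In 0 (fun j z => eval z (H j)) fun z => eval z δ ^ n * f z :=
    (In.sum Finset.univ fun l _ => (hrf l).mul (hc l)).congr (by
      filter_upwards [hn] with y hy
      rw [hy, Finset.sum_mul]
      exact Finset.sum_congr rfl fun l _ => (mul_assoc _ _ _).symm)
  have hp := (GenH.ana_eval δ 0).fun_pow n
  rw [in_iff (fun j => ha j 0) (hp.fun_mul hf), gm_mul hp hf, gm_pow (GenH.ana_eval δ 0),
    ← pl_eq_gm, gm_zero_eq hf] at h6
  refine reg_pow hJ N I hI δ hδ n _ (Ideal.span_le.2 ?_ h6)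
  rintro _ ⟨j, rfl⟩
  change gm 0 (fun z => eval z (H j)) ∈ ex I
  rw [← pl_eq_gm]
  exact Ideal.mem_map_of_mem _ (hH' ▸ Ideal.subset_span ⟨j, rfl⟩)

end Vale.Agent.P282A71
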